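import Vale.Agent.Lib.P124.Asymptotic

namespace Vale.Agent.Results.P124.AsymptoticallyLinear

open Vale.Agent.Lib.P124

/-- If a Lipschitz isomorphism `f` of a Banach space `X` onto a normed space `Y` is asymptotic to a
linear map `T` at infinity, i.e. `f x - T x = o(‖x‖)` as `‖x‖ → ∞`, then `T` is a linear
isomorphism of `X` onto `Y`. -/
theorem result {X Y : Type*} [NormedAddCommGroup X] [NormedSpace ℝ X] [CompleteSpace X]
    [NormedAddCommGroup Y] [NormedSpace ℝ Y]
    (f : X → Y) (K K' : NNReal) (hf : LipschitzWith K f) (hf' : AntilipschitzWith K' f)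
    (hsurj : Function.Surjective f) (T : X →ₗ[ℝ] Y)
    (hT : (fun x => f x - T x) =o[Bornology.cobounded X] (fun x => x)) :
    ∃ e : X ≃L[ℝ] Y, ∀ x, e x = T x :=
  linear_iso_of_lipschitz_iso_asymptotically_linear f K K' hf hf' hsurj T hT

end Vale.Agent.Results.P124.AsymptoticallyLinear
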