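import Vale.Agent.Lib.P124.Asymptotic

namespace Vale.Agent.Results.P124.CoarseAsymptoticallyLinear

open Vale.Agent.Lib.P124

/-- If a coarse Lipschitz equivalence `f` of a Banach space `X` with a normed space `Y`
(`c ‖x - y‖ - A ≤ ‖f x - f y‖ ≤ C ‖x - y‖ + A`, and every point of `Y` within `A` of the image)
is asymptotic to a linear map `T` at infinity, then `T` is a linear isomorphism of `X` onto `Y`. -/
theorem result {X Y : Type*} [NormedAddCommGroup X] [NormedSpace ℝ X] [CompleteSpace X]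
    [NormedAddCommGroup Y] [NormedSpace ℝ Y]
    (f : X → Y) (T : X →ₗ[ℝ] Y) (c C A : ℝ) (hc : 0 < c)
    (hupper : ∀ x y, ‖f x - f y‖ ≤ C * ‖x - y‖ + A)
    (hlower : ∀ x y, c * ‖x - y‖ - A ≤ ‖f x - f y‖)
    (hdense : ∀ y, ∃ x, ‖f x - y‖ ≤ A)
    (hT : (fun x => f x - T x) =o[Bornology.cobounded X] (fun x => x)) :
    ∃ e : X ≃L[ℝ] Y, ∀ x, e x = T x :=
  linear_iso_of_asymptotically_linear f T c C A hc hupper hlower hdense hT

end Vale.Agent.Results.P124.CoarseAsymptoticallyLinear
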